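import Vale.Agent.P221.H395.Comp
import Mathlib.CategoryTheory.Adjunction.Additive

/-!
# P221 (helper395): `p`-completion

* `bij_of_isIso_mod` : if `c : X ⟶ Y` is an isomorphism mod `p` then `[Y, Z] → [X, Z]` is bijective
  for all `p`-complete `Z`;
* `exists_completion` : `p`-completions exist;
* `isIso_mod_of_univ` : a morphism with the universal property of the `p`-completion is an
  isomorphism mod `p`;
* `conn_of_isIso_mod` : the `p`-completion of a bounded below object is bounded below;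
* `isZero_of_hom_R` : a bounded below `p`-complete `X` with `π_* (MU ⊗ (X ⊗ C)) = 0` is zero.
-/

open CategoryTheory MonoidalCategory Limits Pretriangulated
open Vale.Agent.P251.T Vale.Agent.P251.S

set_option linter.unusedSectionVars false

universe v u

namespace Vale.Agent.P221.H395

variable {T : Type u} [Category.{v} T] [Preadditive T] [HasZeroObject T]
    [HasShift T ℤ] [∀ n : ℤ, (shiftFunctor T n).Additive] [Pretriangulated T] {p : ℕ}
    [MonoidalCategory T] [SymmetricCategory T] [TensorTriangulated T]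
  {C : T} {i : 𝟙_ T ⟶ C} {δ : C ⟶ (𝟙_ T)⟦(1 : ℤ)⟧}
  (hC : Triangle.mk ((p : ℤ) • 𝟙 (𝟙_ T)) i δ ∈ distTriang T)

include hC

/-- `c` is an isomorphism mod `p` iff `p` is invertible on its cofibre -/
theorem isIso_mod_iff {X Y Z : T} {c : X ⟶ Y} {q : Y ⟶ Z} {w : Z ⟶ X⟦(1 : ℤ)⟧}
    (h : Triangle.mk c q w ∈ distTriang T) : IsIso (c ▷ C) ↔ IsIso ((p : ℤ) • 𝟙 Z) := by
  rw [isIso_p_iff hC]
  exact (Triangle.isZero₃_iff_isIso₁ _ ((tensorRight C).map_distinguished _ h)).symm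

/-- maps to `p`-complete objects do not see morphisms which are isomorphisms mod `p` -/
theorem bij_of_isIso_mod {X Y Z : T} (c : X ⟶ Y) (hc : IsIso (c ▷ C)) (hZ : PComplete p Z) :
    Function.Bijective (fun g : Y ⟶ Z => c ≫ g) := by
  obtain ⟨Q, q, w, h⟩ := distinguished_cocone_triangle c
  have hQ := (isIso_mod_iff hC h).1 hc
  constructor
  · intro g g' hgg
    have h1 : c ≫ (g - g') = 0 := by
      rw [Preadditive.comp_sub]
      exact sub_eq_zero.2 hgg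
    obtain ⟨k, hk⟩ : ∃ k : Q ⟶ Z, g - g' = q ≫ k := Triangle.yoneda_exact₂ _ h _ h1
    rw [hZ Q hQ k, comp_zero] at hk
    exact sub_eq_zero.1 hk
  · intro f
    have h0 : ∀ t : Q⟦(-1 : ℤ)⟧ ⟶ Z, t = 0 :=
      fun t => hZ _ (isIso_p_map hQ (shiftFunctor T (-1 : ℤ))) t
    obtain ⟨g, hg⟩ : ∃ g : Y ⟶ Z, f = c ≫ g :=
      Triangle.yoneda_exact₂ _ (inv_rot_of_distTriang _ h) f (h0 _)
    exact ⟨g, hg.symm⟩

/-- the `p`-completion of a bounded below object is bounded below -/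
theorem conn_of_isIso_mod [MonoidalClosed T] [HasCoproducts.{0} T] {X Y : T} (c : X ⟶ Y)
    (hc : IsIso (c ▷ C)) (hY : PComplete p Y) {m : ℤ} (hX : Vale.Agent.P251.M.Conn m X) :
    Vale.Agent.P251.M.Conn m Y := by
  have h1 : Vale.Agent.P251.M.Conn m (X ⊗ C) :=
    Vale.Agent.P251.M.Conn.ext₃ _ (redTri_distinguished hC X) hX (hX.mono (by omega))
  have h2 : Vale.Agent.P251.M.Conn m (Y ⊗ C) := h1.of_iso (asIso (c ▷ C))
  intro k hk f
  exact hY.hom_eq_zero_of_mod hC (fun g => h2 k hk g) f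

section closed

variable [IsTriangulated T] [MonoidalClosed T] [HasCoproducts.{0} T]

/-- `p`-completions exist -/
theorem exists_completion (X : T) : ∃ (L : T) (l : X ⟶ L), PComplete p L ∧ IsIso (l ▷ C) := by
  -- `E = 𝟙[1/p]`
  obtain ⟨E⟩ := exists_tel (X := fun _ : ℕ => 𝟙_ T) (fun _ => (p : ℤ) • 𝟙 (𝟙_ T))
  have hE : IsIso ((p : ℤ) • 𝟙 E.obj) := isIso_p_tel hC E
  -- `W ≅ E ⊗ W`
  have hEW : ∀ W : T, IsIso ((p : ℤ) • 𝟙 W) → IsIso (E.ι 0 ▷ W) := by
    intro W hW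
    have h0 : ((p : ℤ) • 𝟙 (𝟙_ T)) ▷ W = (p : ℤ) • 𝟙 (𝟙_ T ⊗ W) := by
      have := map_zsmul ((tensorRight W).mapAddHom (X := 𝟙_ T) (Y := 𝟙_ T)) (p : ℤ) (𝟙 (𝟙_ T))
      change ((p : ℤ) • 𝟙 (𝟙_ T)) ▷ W = (p : ℤ) • (𝟙 (𝟙_ T) ▷ W) at this
      rw [this, MonoidalCategory.id_whiskerRight]
    have h1 : IsIso (((p : ℤ) • 𝟙 (𝟙_ T)) ▷ W) := by
      rw [h0]
      exact isIso_p_of_iso hW (λ_ W).symm
    exact (E.tensR W).isIso_const
  have hadd : (ihom E.obj).Additive := (ihom.adjunction E.obj).right_adjoint_additive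
  let A : T := (ihom E.obj).obj X
  have hA : IsIso ((p : ℤ) • 𝟙 A) := by
    have h1 : (p : ℤ) • 𝟙 A = MonoidalClosed.curry (((p : ℤ) • 𝟙 E.obj) ▷ A ≫
        (ihom.ev E.obj).app X) := by
      have h2 : ((p : ℤ) • 𝟙 E.obj) ▷ A = E.obj ◁ ((p : ℤ) • 𝟙 A) := by
        have e1 := map_zsmul ((tensorRight A).mapAddHom (X := E.obj) (Y := E.obj)) (p : ℤ)
          (𝟙 E.obj)
        have e2 := map_zsmul ((tensorLeft E.obj).mapAddHom (X := A) (Y := A)) (p : ℤ) (𝟙 A)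
        change ((p : ℤ) • 𝟙 E.obj) ▷ A = (p : ℤ) • (𝟙 E.obj ▷ A) at e1
        change E.obj ◁ ((p : ℤ) • 𝟙 A) = (p : ℤ) • (E.obj ◁ 𝟙 A) at e2
        rw [e1, e2, MonoidalCategory.id_whiskerRight, MonoidalCategory.whiskerLeft_id]
      rw [h2]
      apply MonoidalClosed.uncurry_injective
      rw [MonoidalClosed.uncurry_curry, MonoidalClosed.uncurry_eq]
    have h3 : IsIso (((p : ℤ) • 𝟙 E.obj) ▷ A) := by
      infer_instance
    -- `p • 𝟙 A` is the precomposition with `p • 𝟙 E`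
    let v : E.obj ⟶ E.obj := inv ((p : ℤ) • 𝟙 E.obj)
    have hv1 : ((p : ℤ) • 𝟙 E.obj) ≫ v = 𝟙 _ := IsIso.hom_inv_id _
    have hv2 : (p : ℤ) • v = 𝟙 _ := by
      rwa [Preadditive.zsmul_comp, Category.id_comp] at hv1
    let b : A ⟶ A := MonoidalClosed.curry (v ▷ A ≫ (ihom.ev E.obj).app X)
    have hb : (p : ℤ) • b = 𝟙 A := by
      apply MonoidalClosed.uncurry_injective
      have e2 := map_zsmul ((tensorLeft E.obj).mapAddHom (X := A) (Y := A)) (p : ℤ) b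
      change E.obj ◁ ((p : ℤ) • b) = (p : ℤ) • (E.obj ◁ b) at e2
      have e3 := map_zsmul ((tensorRight A).mapAddHom (X := E.obj) (Y := E.obj)) (p : ℤ) v
      change ((p : ℤ) • v) ▷ A = (p : ℤ) • (v ▷ A) at e3
      rw [MonoidalClosed.uncurry_eq, MonoidalClosed.uncurry_eq, e2, Preadditive.zsmul_comp,
        ← MonoidalClosed.uncurry_eq, MonoidalClosed.uncurry_curry, ← Preadditive.zsmul_comp,
        ← e3, hv2, MonoidalCategory.id_whiskerRight, MonoidalCategory.whiskerLeft_id]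
    refine ⟨b, ?_, ?_⟩
    · rw [Preadditive.zsmul_comp, Category.id_comp, hb]
    · rw [Preadditive.comp_zsmul, Category.comp_id, hb]
  let a : A ⟶ X := (λ_ A).inv ≫ (E.ι 0 ▷ A) ≫ (ihom.ev E.obj).app X
  have ha : ∀ (W : T) (g : W ⟶ A), (E.ι 0 ▷ W) ≫ MonoidalClosed.uncurry g =
      (λ_ W).hom ≫ g ≫ a := by
    intro W g
    rw [MonoidalClosed.uncurry_eq, ← whisker_exchange_assoc]
    simp only [a]
    rw [leftUnitor_inv_naturality_assoc, Iso.hom_inv_id_assoc]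
  have hsurj : ∀ W : T, IsIso ((p : ℤ) • 𝟙 W) → ∀ f : W ⟶ X, ∃ g : W ⟶ A, g ≫ a = f := by
    intro W hW f
    have := hEW W hW
    refine ⟨MonoidalClosed.curry (inv (E.ι 0 ▷ W) ≫ (λ_ W).hom ≫ f), ?_⟩
    have h1 := ha W (MonoidalClosed.curry (inv (E.ι 0 ▷ W) ≫ (λ_ W).hom ≫ f))
    rw [MonoidalClosed.uncurry_curry, IsIso.hom_inv_id_assoc] at h1
    exact ((cancel_epi (λ_ W).hom).1 h1).symm
  have hinj : ∀ W : T, IsIso ((p : ℤ) • 𝟙 W) → ∀ g : W ⟶ A, g ≫ a = 0 → g = 0 := by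
    intro W hW g hg
    have := hEW W hW
    have h1 := ha W g
    rw [hg, comp_zero] at h1
    apply MonoidalClosed.uncurry_injective
    rw [← cancel_epi (E.ι 0 ▷ W), h1]
    have h2 : MonoidalClosed.uncurry (0 : W ⟶ A) = 0 := by
      rw [MonoidalClosed.uncurry_eq, MonoidalPreadditive.whiskerLeft_zero, zero_comp]
    rw [h2, comp_zero]
  obtain ⟨L, l, d, h⟩ := distinguished_cocone_triangle a
  refine ⟨L, l, ?_, ?_⟩
  · intro W hW f
    have h1 : f ≫ d = 0 := by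
      let e : (W⟦(-1 : ℤ)⟧)⟦(1 : ℤ)⟧ ≅ W := (shiftFunctorCompIsoId T (-1 : ℤ) 1 (by simp)).app W
      obtain ⟨g, hg⟩ := (shiftFunctor T (1 : ℤ)).map_surjective (e.hom ≫ f ≫ d)
      have h2 : g ≫ a = 0 := by
        apply (shiftFunctor T (1 : ℤ)).map_injective
        have h3 := comp_distTriang_mor_zero₃₁ _ h
        change d ≫ a⟦(1 : ℤ)⟧' = 0 at h3
        rw [Functor.map_comp, hg, Functor.map_zero, Category.assoc, Category.assoc, h3,
          comp_zero, comp_zero]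
      have h3 : g = 0 := hinj _ (isIso_p_map hW (shiftFunctor T (-1 : ℤ))) g h2
      rw [← cancel_epi e.hom, ← hg, h3, Functor.map_zero, comp_zero]
    obtain ⟨b, hb⟩ : ∃ b : W ⟶ X, f = b ≫ l := Triangle.coyoneda_exact₃ _ h f h1
    obtain ⟨b', hb'⟩ := hsurj W hW b
    have h4 := comp_distTriang_mor_zero₁₂ _ h
    change a ≫ l = 0 at h4
    rw [hb, ← hb', Category.assoc, h4, comp_zero]
  · have h5 := rot_of_distTriang _ h
    exact (isIso_mod_iff hC h5).2 (isIso_p_map hA (shiftFunctor T (1 : ℤ)))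

/-- A morphism with the universal property of the `p`-completion is an isomorphism mod `p`. -/
theorem isIso_mod_of_univ {X Y : T} (c : X ⟶ Y) (hY : PComplete p Y)
    (hu : ∀ Z : T, PComplete p Z → ∀ f : X ⟶ Z, ∃! g : Y ⟶ Z, c ≫ g = f) : IsIso (c ▷ C) := by
  obtain ⟨L, l, hL, hl⟩ := exists_completion hC X
  obtain ⟨g, hg, -⟩ := hu L hL l
  obtain ⟨k, hk⟩ := (bij_of_isIso_mod hC l hl hY).surjective c
  replace hk : l ≫ k = c := hk
  replace hg : c ≫ g = l := hg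
  have h1 : k ≫ g = 𝟙 L := (bij_of_isIso_mod hC l hl hL).injective (by
    rw [reassoc_of% hk, hg, Category.comp_id])
  have h2 : g ≫ k = 𝟙 Y := (hu Y hY c).unique (by rw [reassoc_of% hg, hk]) (Category.comp_id c)
  have : IsIso k := ⟨g, h1, h2⟩
  have h3 : c ▷ C = (l ▷ C) ≫ (k ▷ C) := by rw [← comp_whiskerRight, hk]
  rw [h3]
  infer_instance

end closed

section stable

open Vale.Agent.P251.M Vale.Agent.P251.I

variable [IsTriangulated T] [MonoidalClosed T] [HasCoproducts.{0} T] [HasProducts.{0} T]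
  [StableCat T]

/-- a bounded below object with trivial `MU`-homology is zero -/
theorem isZero_of_conn_R (D : MUData T) {X : T} {m : ℤ} (h0 : Conn m X)
    (h : ∀ (k : ℤ) (f : (𝟙_ T)⟦k⟧ ⟶ D.R ⊗ X), f = 0) : IsZero X :=
  isZero_of_forall_conn StableCat.generator fun n =>
    Vale.Agent.P093.Nak.conn_of_conn_R D h0 (n := n) fun k _ f => h k f

/-- a bounded below `p`-complete `X` with `π_* (MU ⊗ (X ⊗ C)) = 0` is zero -/
theorem isZero_of_hom_R (D : MUData T) {X : T} {m : ℤ} (h0 : Conn m X) (hX : PComplete p X)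
    (h : ∀ (k : ℤ) (f : (𝟙_ T)⟦k⟧ ⟶ D.R ⊗ (X ⊗ C)), f = 0) : IsZero X :=
  hX.isZero_of_mod hC (isZero_of_conn_R hC D
    (Conn.ext₃ _ (redTri_distinguished hC X) h0 (h0.mono (by omega))) h)

end stable

end Vale.Agent.P221.H395
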