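import Vale.Agent.P221.H395.Comp2

/-!
# P221 (helper395): `p`-completion of homotopy modules

`c : X ⟶ Y` an isomorphism mod `p` (`IsIso (c ▷ C)`), `Y` `p`-complete.

* `isIso_whiskerLeft_mod`, `isIso_whiskerRight_mod` : `W ◁ c`, `c ▷ W` are isomorphisms mod `p`;
* `bij_whiskerLeft_mod` : `(W ⊗ Y ⟶ Z) → (W ⊗ X ⟶ Z)` is bijective for `p`-complete `Z`;
* `exists_modStr` : a module structure on `X` extends uniquely to `Y`;
* `isLinear_of_comp` : a map `g : Y ⟶ Z` to a `p`-complete module is linear if `c ≫ g` is.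
-/

open CategoryTheory MonoidalCategory Limits Pretriangulated MonObj
open Vale.Agent.P251.T Vale.Agent.P251.S

set_option linter.unusedSectionVars false

universe v u

namespace Vale.Agent.P221.H395

variable {T : Type u} [Category.{v} T] [Preadditive T] [HasZeroObject T]
    [HasShift T ℤ] [∀ n : ℤ, (shiftFunctor T n).Additive] [Pretriangulated T] {p : ℕ}
    [MonoidalCategory T] [SymmetricCategory T] [TensorTriangulated T]
  {C : T} {i : 𝟙_ T ⟶ C} {δ : C ⟶ (𝟙_ T)⟦(1 : ℤ)⟧}

theorem isIso_whiskerLeft_mod (W : T) {X Y : T} (c : X ⟶ Y) (hc : IsIso (c ▷ C)) :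
    IsIso ((W ◁ c) ▷ C) := by
  rw [whisker_assoc]
  infer_instance

theorem isIso_whiskerRight_mod (W : T) {X Y : T} (c : X ⟶ Y) (hc : IsIso (c ▷ C)) :
    IsIso ((c ▷ W) ▷ C) := by
  have h1 : (c ▷ W) ▷ C = ((β_ X W).hom ▷ C) ≫ ((W ◁ c) ▷ C) ≫ ((β_ W Y).hom ▷ C) := by
    rw [← comp_whiskerRight, ← comp_whiskerRight, ← BraidedCategory.braiding_naturality_left_assoc,
      SymmetricCategory.symmetry, Category.comp_id]
  have := isIso_whiskerLeft_mod (C := C) W c hc
  rw [h1]
  infer_instance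

variable (hC : Triangle.mk ((p : ℤ) • 𝟙 (𝟙_ T)) i δ ∈ distTriang T)

include hC

/-- `(W ⊗ Y ⟶ Z) → (W ⊗ X ⟶ Z)` is bijective for `p`-complete `Z` -/
theorem bij_whiskerLeft_mod (W : T) {X Y Z : T} (c : X ⟶ Y) (hc : IsIso (c ▷ C))
    (hZ : PComplete p Z) : Function.Bijective (fun g : W ⊗ Y ⟶ Z => (W ◁ c) ≫ g) :=
  bij_of_isIso_mod hC (W ◁ c) (isIso_whiskerLeft_mod W c hc) hZ

variable {R : T} [MonObj R] {X Y Z : T}

/-- a map from the completion of a module to a `p`-complete module is linear if its restriction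
to the module is -/
theorem isLinear_of_comp {M : ModStr R X} {N : ModStr R Y} {N' : ModStr R Z} {c : X ⟶ Y}
    (hc : IsIso (c ▷ C)) (hcl : M.IsLinear N c) (hZ : PComplete p Z) {g : Y ⟶ Z}
    (hg : M.IsLinear N' (c ≫ g)) : N.IsLinear N' g := by
  refine (bij_whiskerLeft_mod hC R c hc hZ).injective ?_
  unfold ModStr.IsLinear at hcl hg
  rw [← Category.assoc, ← hcl, Category.assoc, hg, MonoidalCategory.whiskerLeft_comp,
    Category.assoc]

/-- A module structure extends to the `p`-completion. -/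
theorem exists_modStr (M : ModStr R X) (c : X ⟶ Y) (hc : IsIso (c ▷ C)) (hY : PComplete p Y) :
    ∃ N : ModStr R Y, M.IsLinear N c := by
  obtain ⟨b, hb⟩ := (bij_whiskerLeft_mod hC R c hc hY).surjective (M.act ≫ c)
  replace hb : R ◁ c ≫ b = M.act ≫ c := hb
  refine ⟨⟨b, ?_, ?_⟩, hb.symm⟩
  · refine (bij_whiskerLeft_mod hC (𝟙_ T) c hc hY).injective ?_
    rw [whisker_exchange_assoc, hb, ← Category.assoc, M.one_act, leftUnitor_naturality]
  · refine (bij_whiskerLeft_mod hC (R ⊗ R) c hc hY).injective ?_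
    rw [whisker_exchange_assoc, hb, ← Category.assoc, M.mul_act, associator_naturality_right_assoc,
      ← MonoidalCategory.whiskerLeft_comp_assoc, hb, MonoidalCategory.whiskerLeft_comp]
    simp only [Category.assoc, hb]

/-- uniqueness of the module structure on the completion -/
theorem act_unique {M : ModStr R X} {N N' : ModStr R Y} {c : X ⟶ Y}
    (hc : IsIso (c ▷ C)) (h : M.IsLinear N c) (h' : M.IsLinear N' c) (hY : PComplete p Y) :
    N.act = N'.act := by
  refine (bij_whiskerLeft_mod hC R c hc hY).injective ?_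
  unfold ModStr.IsLinear at h h'
  rw [← h, ← h']

end Vale.Agent.P221.H395
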