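import Vale.Agent.P251.S.TelTens
import Vale.Agent.P251.S.ModP
import Vale.Agent.P251.S.Local
import Vale.Agent.P093.N.HurMU

/-!
# P221 (helper395): `p`-complete objects, lifting from `B / p` to `B`

`C` is the cofibre of `p : 𝟙 ⟶ 𝟙` (triangle `hC`), `(redC i).app Y : Y ⟶ Y ⊗ C` the reduction.

* `PComplete p X` : no maps to `X` from objects on which `p` is invertible;
* `isIso_p_iff` : `p` is invertible on `W` iff `W ⊗ C = 0`;
* `isIso_p_tel` : `p` is invertible on the telescope of `p : X ⟶ X`;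
* closure properties of `PComplete`, `pComplete_tensor : PComplete p (X ⊗ C)`;
* `PComplete.hom_eq_zero_of_mod` : `[X, B ⊗ C] = 0 ⇒ [X, B] = 0` for `B` `p`-complete;
* `PComplete.exists_lift_mod` : `[X, (B ⊗ C)⟦1⟧] = 0 ⇒ [X, B] → [X, B ⊗ C]` is onto;
* `PComplete.isZero_of_mod`, `isZero_of_hom_RC` : detection of zero objects.
-/

open CategoryTheory MonoidalCategory Limits Pretriangulated
open Vale.Agent.P251.T Vale.Agent.P251.S

set_option linter.unusedSectionVars false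

universe v u

namespace Vale.Agent.P221.H395

section defs

variable {T : Type u} [Category.{v} T] [Preadditive T]

/-- `X` is `p`-complete: every map to `X` from an object on which `p` is invertible is zero. -/
def PComplete (p : ℕ) (X : T) : Prop :=
  ∀ W : T, IsIso ((p : ℤ) • 𝟙 W) → ∀ f : W ⟶ X, f = 0

variable {p : ℕ}

theorem PComplete.of_iso {X Y : T} (h : PComplete p X) (e : X ≅ Y) : PComplete p Y := by
  intro W hW f
  rw [← cancel_mono e.inv, h W hW (f ≫ e.inv), zero_comp]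

theorem PComplete.of_retract {X Y : T} (h : PComplete p X) (i : Y ⟶ X) (r : X ⟶ Y)
    (hir : i ≫ r = 𝟙 Y) : PComplete p Y := by
  intro W hW f
  have h1 := h W hW (f ≫ i)
  calc f = (f ≫ i) ≫ r := by rw [Category.assoc, hir, Category.comp_id]
    _ = 0 := by rw [h1, zero_comp]

theorem PComplete.of_isZero {X : T} (h : IsZero X) : PComplete p X :=
  fun _ _ _ => h.eq_of_tgt _ _

theorem PComplete.pi {I : Type} {X : I → T} [HasProduct X] (h : ∀ i, PComplete p (X i)) :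
    PComplete p (∏ᶜ X) := by
  intro W hW f
  apply Limits.Pi.hom_ext
  intro i
  rw [h i W hW (f ≫ Pi.π X i), zero_comp]

theorem isIso_p_of_iso {X Y : T} (h : IsIso ((p : ℤ) • 𝟙 X)) (e : X ≅ Y) :
    IsIso ((p : ℤ) • 𝟙 Y) := by
  have h1 : (p : ℤ) • 𝟙 Y = e.inv ≫ ((p : ℤ) • 𝟙 X) ≫ e.hom := by
    rw [Preadditive.zsmul_comp, Category.id_comp, Preadditive.comp_zsmul, Iso.inv_hom_id]
  rw [h1]
  infer_instance

theorem isIso_p_map {T' : Type*} [Category* T'] [Preadditive T'] {X : T}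
    (h : IsIso ((p : ℤ) • 𝟙 X)) (F : T ⥤ T') [F.Additive] : IsIso ((p : ℤ) • 𝟙 (F.obj X)) := by
  have h1 : (p : ℤ) • 𝟙 (F.obj X) = F.map ((p : ℤ) • 𝟙 X) := by
    rw [F.map_zsmul, CategoryTheory.Functor.map_id]
  rw [h1]
  infer_instance

/-- maps from an object with `p` invertible are divisible by `p` -/
theorem exists_div {W X : T} (hW : IsIso ((p : ℤ) • 𝟙 W)) (f : W ⟶ X) :
    ∃ g : W ⟶ X, f = (p : ℤ) • g := by
  refine ⟨inv ((p : ℤ) • 𝟙 W) ≫ f, ?_⟩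
  have h2 := IsIso.hom_inv_id ((p : ℤ) • 𝟙 W)
  rw [Preadditive.zsmul_comp, Category.id_comp] at h2
  rw [← Preadditive.zsmul_comp, h2, Category.id_comp]

/-- an object on which `p ^ 2 = 0` is `p`-complete -/
theorem pComplete_of_sq {X : T} (h : (p : ℤ) • (p : ℤ) • 𝟙 X = 0) : PComplete p X := by
  intro W hW f
  obtain ⟨g, rfl⟩ := exists_div hW f
  obtain ⟨g, rfl⟩ := exists_div hW g
  have h1 : (p : ℤ) • (p : ℤ) • g = g ≫ ((p : ℤ) • (p : ℤ) • 𝟙 X) := by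
    rw [Preadditive.comp_zsmul, Preadditive.comp_zsmul, Category.comp_id]
  rw [h1, h, comp_zero]

end defs

section shift

variable {T : Type u} [Category.{v} T] [Preadditive T] [HasZeroObject T]
    [HasShift T ℤ] [∀ n : ℤ, (shiftFunctor T n).Additive] [Pretriangulated T] {p : ℕ}

theorem PComplete.shift {X : T} (h : PComplete p X) (n : ℤ) : PComplete p (X⟦n⟧) := by
  intro W hW f
  have hW' := isIso_p_map hW (shiftFunctor T (-n))
  let e : (X⟦n⟧)⟦-n⟧ ≅ X := (shiftFunctorCompIsoId T n (-n) (by simp)).app X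
  have h1 := h _ hW' (f⟦-n⟧' ≫ e.hom)
  apply (shiftFunctor T (-n)).map_injective
  rw [← cancel_mono e.hom, h1, Functor.map_zero, zero_comp]

theorem PComplete.of_shift {X : T} (n : ℤ) (h : PComplete p (X⟦n⟧)) : PComplete p X :=
  (h.shift (-n)).of_iso ((shiftFunctorCompIsoId T n (-n) (by simp)).app X)

theorem PComplete.ext₂ (Δ : Triangle T) (hΔ : Δ ∈ distTriang T) (h₁ : PComplete p Δ.obj₁)
    (h₃ : PComplete p Δ.obj₃) : PComplete p Δ.obj₂ := by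
  intro W hW f
  obtain ⟨g, hg⟩ := Triangle.coyoneda_exact₂ Δ hΔ f (h₃ W hW _)
  rw [hg, h₁ W hW g, zero_comp]

theorem PComplete.ext₃ (Δ : Triangle T) (hΔ : Δ ∈ distTriang T) (h₁ : PComplete p Δ.obj₁)
    (h₂ : PComplete p Δ.obj₂) : PComplete p Δ.obj₃ :=
  PComplete.ext₂ _ (rot_of_distTriang _ hΔ) h₂ (h₁.shift 1)

theorem PComplete.ext₁ (Δ : Triangle T) (hΔ : Δ ∈ distTriang T) (h₂ : PComplete p Δ.obj₂)
    (h₃ : PComplete p Δ.obj₃) : PComplete p Δ.obj₁ :=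
  PComplete.ext₂ _ (inv_rot_of_distTriang _ hΔ) (h₃.shift (-1)) h₂

variable [MonoidalCategory T] [SymmetricCategory T] [TensorTriangulated T]
  {C : T} {i : 𝟙_ T ⟶ C} {δ : C ⟶ (𝟙_ T)⟦(1 : ℤ)⟧}
  (hC : Triangle.mk ((p : ℤ) • 𝟙 (𝟙_ T)) i δ ∈ distTriang T)

include hC

/-- `p` is invertible on `W` iff `W ⊗ C = 0` -/
theorem isIso_p_iff (W : T) : IsIso ((p : ℤ) • 𝟙 W) ↔ IsZero (W ⊗ C) :=
  (Triangle.isZero₃_iff_isIso₁ _ (redTri_distinguished hC W)).symm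

theorem sq_C : (p : ℤ) • (p : ℤ) • 𝟙 C = 0 := by
  have h1 : i ≫ ((p : ℤ) • 𝟙 C) = 0 := by
    have h2 := comp_distTriang_mor_zero₁₂ _ hC
    change ((p : ℤ) • 𝟙 (𝟙_ T)) ≫ i = 0 at h2
    rw [Preadditive.comp_zsmul, Category.comp_id]
    rwa [Preadditive.zsmul_comp, Category.id_comp] at h2
  obtain ⟨z, hz⟩ : ∃ z : (𝟙_ T)⟦(1 : ℤ)⟧ ⟶ C, (p : ℤ) • 𝟙 C = δ ≫ z :=
    Triangle.yoneda_exact₃ _ hC _ h1
  have h3 := comp_distTriang_mor_zero₃₁ _ hC
  change δ ≫ ((p : ℤ) • 𝟙 (𝟙_ T))⟦(1 : ℤ)⟧' = 0 at h3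
  rw [Functor.map_zsmul, CategoryTheory.Functor.map_id, Preadditive.comp_zsmul,
    Category.comp_id] at h3
  rw [hz, ← Preadditive.zsmul_comp, h3, zero_comp]

theorem sq_tensor (X : T) : (p : ℤ) • (p : ℤ) • 𝟙 (X ⊗ C) = 0 := by
  have h1 : (p : ℤ) • (p : ℤ) • 𝟙 (X ⊗ C) = X ◁ ((p : ℤ) • (p : ℤ) • 𝟙 C) := by
    have h2 : ∀ f : C ⟶ C, X ◁ ((p : ℤ) • f) = (p : ℤ) • (X ◁ f) := fun f =>
      map_zsmul ((tensorLeft X).mapAddHom (X := C) (Y := C)) (p : ℤ) f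
    rw [h2, h2, MonoidalCategory.whiskerLeft_id]
  rw [h1, sq_C hC, MonoidalPreadditive.whiskerLeft_zero]

/-- `X ⊗ C = X / p` is `p`-complete -/
theorem pComplete_tensor (X : T) : PComplete p (X ⊗ C) := pComplete_of_sq (sq_tensor hC X)

variable [MonoidalClosed T] [HasCoproducts.{0} T]

/-- `p` is invertible on the telescope of `p : X ⟶ X` -/
theorem isIso_p_tel {X : T} (U : Tel (X := fun _ => X) (fun _ => (p : ℤ) • 𝟙 X)) :
    IsIso ((p : ℤ) • 𝟙 U.obj) := by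
  rw [isIso_p_iff hC]
  let V := U.tensR C
  have hV : IsZero V.obj := by
    refine V.isZero_of_proZero fun n => ⟨2, ?_⟩
    have h0 : ((p : ℤ) • 𝟙 X) ▷ C = (p : ℤ) • 𝟙 (X ⊗ C) := by
      have := map_zsmul ((tensorRight C).mapAddHom (X := X) (Y := X)) (p : ℤ) (𝟙 X)
      change ((p : ℤ) • 𝟙 X) ▷ C = (p : ℤ) • (𝟙 X ▷ C) at this
      rw [this, MonoidalCategory.id_whiskerRight]
    rw [trT_const (X := X ⊗ C) (((p : ℤ) • 𝟙 X) ▷ C) n 2, itr_succ, itr_succ, itr_zero,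
      Category.id_comp, h0, Preadditive.zsmul_comp, Category.id_comp]
    exact sq_tensor hC X
  exact hV

/-- infinitely `p`-divisible compatible families to a `p`-complete object are zero -/
theorem PComplete.eq_zero_of_compat {B X : T} (hB : PComplete p B) (x : ℕ → (X ⟶ B))
    (hx : ∀ n, x n = (p : ℤ) • x (n + 1)) (n : ℕ) : x n = 0 := by
  obtain ⟨U⟩ := exists_tel (X := fun _ : ℕ => X) (fun _ => (p : ℤ) • 𝟙 X)
  obtain ⟨l, hl⟩ := U.exists_desc (Z := B) x (fun n => by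
    rw [Preadditive.zsmul_comp, Category.id_comp]; exact (hx n).symm)
  rw [← hl n, hB _ (isIso_p_tel hC U) l, comp_zero]

/-- a `p`-divisible group `[X, B]` into a `p`-complete object is zero -/
theorem PComplete.hom_eq_zero_of_div {B X : T} (hB : PComplete p B)
    (h : ∀ g : X ⟶ B, ∃ g' : X ⟶ B, g = (p : ℤ) • g') (g : X ⟶ B) : g = 0 := by
  choose d hd using h
  let x : ℕ → (X ⟶ B) := fun n => Nat.rec g (fun _ y => d y) n
  exact hB.eq_zero_of_compat hC x (fun n => hd (x n)) 0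

/-- `[X, B ⊗ C] = 0 ⇒ [X, B] = 0` for `B` `p`-complete -/
theorem PComplete.hom_eq_zero_of_mod {B X : T} (hB : PComplete p B)
    (h : ∀ g : X ⟶ B ⊗ C, g = 0) (g : X ⟶ B) : g = 0 := by
  refine hB.hom_eq_zero_of_div hC (fun g => ?_) g
  obtain ⟨g', hg'⟩ := exists_zsmul_of_red hC g (h _)
  exact ⟨g', hg'.symm⟩

/-- **Lifting** : `[X, (B ⊗ C)⟦1⟧] = 0 ⇒ [X, B] → [X, B ⊗ C]` is onto, for `B` `p`-complete. -/
theorem PComplete.exists_lift_mod {B X : T} (hB : PComplete p B)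
    (h : ∀ g : X ⟶ (B ⊗ C)⟦(1 : ℤ)⟧, g = 0) (f : X ⟶ B ⊗ C) :
    ∃ f' : X ⟶ B, f' ≫ (redC i).app B = f := by
  have h1 : ∀ g : X ⟶ B⟦(1 : ℤ)⟧, g = 0 := by
    refine (hB.shift 1).hom_eq_zero_of_mod hC fun g => ?_
    let e : (B⟦(1 : ℤ)⟧) ⊗ C ≅ (B ⊗ C)⟦(1 : ℤ)⟧ := ((tensorRight C).commShiftIso (1 : ℤ)).app B
    rw [← cancel_mono e.hom, h (g ≫ e.hom), zero_comp]
  obtain ⟨g, hg⟩ : ∃ g : X ⟶ B, f = g ≫ (redC i).app B :=
    Triangle.coyoneda_exact₃ _ (redTri_distinguished hC B) f (h1 _)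
  exact ⟨g, hg.symm⟩

/-- a `p`-complete `X` with `X ⊗ C = 0` is zero -/
theorem PComplete.isZero_of_mod {X : T} (hX : PComplete p X) (h : IsZero (X ⊗ C)) : IsZero X := by
  rw [IsZero.iff_id_eq_zero]
  exact hX X ((isIso_p_iff hC X).2 h) (𝟙 X)

end shift

end Vale.Agent.P221.H395
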