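import Vale.Agent.P221.H609.Ops
import Mathlib.Tactic.Ring
import Mathlib.Tactic.Linarith
import Mathlib.Tactic.Positivity

/-!
# P221 (V): the graded pieces and the operators `R l`, with `v_0`

`M (n+1) k` is the space of functions `φ E α` of a `T`-exponent `E` (the variable `j` is `t_{j+1}`,
of weight `p^(j+1)`) and a `v`-exponent `α : Fin (n+1) →₀ ℕ`.

* `F b d w` : weight `w`, `δ`-degree `d` (`δ v_a = p^a`, `δ t_j = 1`), no `v_a` with `a < b`;
* `Ro b l = ∑_{a ≥ b} v_a t_{n+1+l-a}^{p^a}` as an operator; `F b d w → F b d (w - P l)`.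
-/

open MvPolynomial

namespace Vale.Agent.P221.H395.V

open Vale.Agent.P221.H609 (M Z W V dV red Z_apply W_apply_of_le W_apply_of_not_le V_apply_pos
  V_apply_zero dV_apply red_apply_zero red_apply_pos Z_mul_W dV_mul_V V_inj commute_Z_Z
  commute_Z_V commute_Z_dV commute_Z_red commute_W_V commute_V_V red_mul_V commute_red_V
  V_dV_of_red commute_Z_W)

noncomputable section core

variable (p : ℕ) {n : ℕ} {k : Type} [CommRing k]

/-- the weight `t_{j+1} ↦ p^(j+1)` -/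
def wt (E : ℕ →₀ ℕ) : ℤ := Finsupp.weight (fun j => (p : ℤ) ^ (j + 1)) E

/-- the number of factors -/
def ct (E : ℕ →₀ ℕ) : ℤ := Finsupp.weight (fun _ => (1 : ℤ)) E

/-- the `δ`-degree of a `v`-monomial -/
def dv (α : Fin (n + 1) →₀ ℕ) : ℤ := Finsupp.weight (fun a : Fin (n + 1) => (p : ℤ) ^ (a : ℕ)) α

/-- the weight lowered by `R l` -/
def P (n l : ℕ) : ℤ := (p : ℤ) ^ (n + 1 + l)

/-- functions of `δ`-degree `d`, weight `w`, not involving `v_a`, `a < b` -/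
def F (b : ℕ) (d w : ℤ) : Submodule k (M (n + 1) k) where
  carrier := {φ | ∀ E α, φ E α ≠ 0 →
    wt p E = w ∧ dv p α + ct E = d ∧ ∀ a : Fin (n + 1), (a : ℕ) < b → α a = 0}
  zero_mem' := by
    intro E α h
    exact absurd rfl h
  add_mem' := by
    intro φ ψ hφ hψ E α h
    by_cases h1 : φ E α = 0
    · refine hψ E α ?_
      intro h2
      exact h (by rw [Pi.add_apply, Pi.add_apply, h1, h2, add_zero])
    · exact hφ E α h1
  smul_mem' := by
    intro c φ hφ E α h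
    refine hφ E α ?_
    intro h2
    exact h (by rw [Pi.smul_apply, Pi.smul_apply, h2, smul_zero])

variable {p}

lemma mem_F {b : ℕ} {d w : ℤ} {φ : M (n + 1) k} : φ ∈ F p b d w ↔ ∀ E α, φ E α ≠ 0 →
    wt p E = w ∧ dv p α + ct E = d ∧ ∀ a : Fin (n + 1), (a : ℕ) < b → α a = 0 :=
  Iff.rfl

lemma F_mono {b : ℕ} {d w : ℤ} : (F p (b + 1) d w : Submodule k (M (n + 1) k)) ≤ F p b d w := by
  intro φ hφ E α h
  obtain ⟨h1, h2, h3⟩ := hφ E α h
  exact ⟨h1, h2, fun a ha => h3 a (by omega)⟩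

lemma wt_nonneg (E : ℕ →₀ ℕ) : 0 ≤ wt p E := by
  unfold wt
  rw [Finsupp.weight_apply, Finsupp.sum]
  refine Finset.sum_nonneg fun i _ => ?_
  rw [nsmul_eq_mul]
  positivity

lemma ct_nonneg (E : ℕ →₀ ℕ) : 0 ≤ ct E := by
  unfold ct
  rw [Finsupp.weight_apply, Finsupp.sum]
  refine Finset.sum_nonneg fun i _ => ?_
  rw [nsmul_eq_mul]
  positivity

lemma wt_add (E D : ℕ →₀ ℕ) : wt p (E + D) = wt p E + wt p D := by
  unfold wt; rw [map_add]

lemma ct_add (E D : ℕ →₀ ℕ) : ct (E + D) = ct E + ct D := by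
  unfold ct; rw [map_add]

lemma F_neg {b : ℕ} {d w : ℤ} (hw : w < 0) {φ : M (n + 1) k} (h : φ ∈ F p b d w) : φ = 0 := by
  funext E α
  by_contra h0
  have h1 := (h E α h0).1
  have h2 := wt_nonneg (p := p) E
  omega

lemma Z_mem {b : ℕ} {d w : ℤ} (D : ℕ →₀ ℕ) {φ : M (n + 1) k} (h : φ ∈ F p b d w) :
    Z D φ ∈ F p b (d - ct D) (w - wt p D) := by
  intro E α h0
  obtain ⟨h1, h2, h3⟩ := h (E + D) α h0
  rw [wt_add] at h1
  rw [ct_add] at h2
  exact ⟨by omega, by omega, h3⟩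

lemma W_mem {b : ℕ} {d w : ℤ} (D : ℕ →₀ ℕ) {φ : M (n + 1) k} (h : φ ∈ F p b d w) :
    W D φ ∈ F p b (d + ct D) (w + wt p D) := by
  intro E α h0
  by_cases hD : D ≤ E
  · rw [W_apply_of_le hD] at h0
    obtain ⟨h1, h2, h3⟩ := h (E - D) α h0
    have hE : E = (E - D) + D := (tsub_add_cancel_of_le hD).symm
    have e1 : wt p E = wt p (E - D) + wt p D := by
      conv_lhs => rw [hE]
      rw [wt_add]
    have e2 : ct E = ct (E - D) + ct D := by
      conv_lhs => rw [hE]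
      rw [ct_add]
    exact ⟨by omega, by omega, h3⟩
  · exact absurd (W_apply_of_not_le hD φ α) h0

lemma dv_add (α β : Fin (n + 1) →₀ ℕ) : dv p (α + β) = dv p α + dv p β := by
  unfold dv; rw [map_add]

lemma dv_single (a : Fin (n + 1)) : dv p (Finsupp.single a 1) = (p : ℤ) ^ (a : ℕ) := by
  unfold dv; rw [Finsupp.weight_single, one_smul]

lemma V_mem {b : ℕ} {d w : ℤ} {a : Fin (n + 1)} (ha : b ≤ a) {φ : M (n + 1) k}
    (h : φ ∈ F p b d w) : V a φ ∈ F p b (d + (p : ℤ) ^ (a : ℕ)) w := by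
  intro E α h0
  by_cases hα : 1 ≤ α a
  · rw [V_apply_pos hα] at h0
    obtain ⟨h1, h2, h3⟩ := h E _ h0
    have hle : Finsupp.single a 1 ≤ α := by
      rw [Finsupp.single_le_iff]; exact hα
    have e1 : dv p α = dv p (α - Finsupp.single a 1) + (p : ℤ) ^ (a : ℕ) := by
      conv_lhs => rw [← tsub_add_cancel_of_le hle]
      rw [dv_add, dv_single]
    refine ⟨h1, by omega, ?_⟩
    intro c hc
    have h4 := h3 c hc
    have hca : c ≠ a := by
      rintro rfl; omega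
    rw [Finsupp.tsub_apply, Finsupp.single_eq_of_ne hca] at h4
    simpa using h4
  · exact absurd (V_apply_zero hα φ E) h0

lemma dV_mem {b : ℕ} {d w : ℤ} {a : Fin (n + 1)} {φ : M (n + 1) k} (h : φ ∈ F p b d w) :
    dV a φ ∈ F p b (d - (p : ℤ) ^ (a : ℕ)) w := by
  intro E α h0
  obtain ⟨h1, h2, h3⟩ := h E (α + Finsupp.single a 1) h0
  rw [dv_add, dv_single] at h2
  refine ⟨h1, by omega, ?_⟩
  intro c hc
  have h4 := h3 c hc
  rw [Finsupp.add_apply] at h4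
  omega

lemma red_mem {b : ℕ} {d w : ℤ} {a : Fin (n + 1)} (ha : (a : ℕ) = b) {φ : M (n + 1) k}
    (h : φ ∈ F p b d w) : red a φ ∈ F p (b + 1) d w := by
  intro E α h0
  by_cases hα : α a = 0
  · rw [red_apply_zero hα] at h0
    obtain ⟨h1, h2, h3⟩ := h E α h0
    refine ⟨h1, h2, ?_⟩
    intro c hc
    by_cases hcb : (c : ℕ) < b
    · exact h3 c hcb
    · have : c = a := Fin.ext (by omega)
      rw [this]; exact hα
  · exact absurd (red_apply_pos hα φ E) h0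

lemma red_eq_self {b : ℕ} {d w : ℤ} {a : Fin (n + 1)} (ha : (a : ℕ) = b) {φ : M (n + 1) k}
    (h : φ ∈ F p (b + 1) d w) : red a φ = φ := by
  funext E α
  by_cases hα : α a = 0
  · rw [red_apply_zero hα]
  · rw [red_apply_pos hα]
    by_contra h0
    exact hα ((h E α (Ne.symm h0)).2.2 a (by omega))

/-! ### the operators -/

variable (p)

/-- the shift exponent of the term `a` of `R l` -/
def De (a : Fin (n + 1)) (l : ℕ) : ℕ →₀ ℕ := Finsupp.single (n + l - a) (p ^ (a : ℕ))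

/-- `R l` restricted to the variables `v_a`, `b ≤ a` -/
def Ro (b l : ℕ) : Module.End k (M (n + 1) k) :=
  ∑ a ∈ Finset.univ.filter (fun a : Fin (n + 1) => b ≤ a), V a * Z (De p a l)

variable {p}

lemma wt_De (a : Fin (n + 1)) (l : ℕ) : wt p (De p a l) = P p n l := by
  unfold wt De P
  rw [Finsupp.weight_single]
  have : (n + l - (a : ℕ) + 1) + (a : ℕ) = n + 1 + l := by
    have := a.2; omega
  rw [← this, pow_add _ (n + l - (a : ℕ) + 1), nsmul_eq_mul]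
  push_cast
  ring

lemma ct_De (a : Fin (n + 1)) (l : ℕ) : ct (De p a l) = (p : ℤ) ^ (a : ℕ) := by
  unfold ct De
  rw [Finsupp.weight_single, nsmul_eq_mul, mul_one]
  push_cast
  rfl

lemma Ro_mem' {b b' l : ℕ} (hb : b ≤ b') {d w : ℤ} {φ : M (n + 1) k} (h : φ ∈ F p b d w) :
    Ro p b' l φ ∈ F p b d (w - P p n l) := by
  unfold Ro
  rw [LinearMap.sum_apply]
  refine Submodule.sum_mem _ ?_
  intro a ha
  rw [Finset.mem_filter] at ha
  rw [Module.End.mul_apply]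
  have h1 := V_mem (p := p) (hb.trans ha.2) (Z_mem (p := p) (De p a l) h)
  rw [wt_De, ct_De, sub_add_cancel] at h1
  exact h1

lemma Ro_mem {b l : ℕ} {d w : ℤ} {φ : M (n + 1) k} (h : φ ∈ F p b d w) :
    Ro p b l φ ∈ F p b d (w - P p n l) := Ro_mem' le_rfl h

lemma Ro_succ {b : ℕ} (hb : b < n + 1) (l : ℕ) :
    (Ro p b l : Module.End k (M (n + 1) k)) =
      Ro p (b + 1) l + V ⟨b, hb⟩ * Z (De p ⟨b, hb⟩ l) := by
  unfold Ro
  have : (Finset.univ.filter (fun a : Fin (n + 1) => b ≤ a)) =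
      insert (⟨b, hb⟩ : Fin (n + 1)) (Finset.univ.filter (fun a : Fin (n + 1) => b + 1 ≤ a)) := by
    ext a
    simp only [Finset.mem_filter, Finset.mem_univ, true_and, Finset.mem_insert, Fin.ext_iff]
    omega
  rw [this, Finset.sum_insert (by simp)]
  exact add_comm _ _

lemma commute_Ro_Ro (b l b' l' : ℕ) :
    Commute (Ro p b l : Module.End k (M (n + 1) k)) (Ro p b' l') := by
  unfold Ro
  refine Commute.sum_left _ _ _ fun a _ => Commute.sum_right _ _ _ fun a' _ => ?_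
  exact ((commute_V_V a a').mul_right (commute_Z_V _ a).symm).mul_left
    ((commute_Z_V _ a').mul_right (commute_Z_Z _ _))

lemma commute_V_Ro (c : Fin (n + 1)) (b l : ℕ) :
    Commute (V c : Module.End k (M (n + 1) k)) (Ro p b l) := by
  unfold Ro
  exact Commute.sum_right _ _ _ fun a _ => (commute_V_V c a).mul_right (commute_Z_V _ c).symm

lemma commute_W_Ro (c : Fin (n + 1)) (l b j : ℕ)
    (h : ∀ a : Fin (n + 1), b ≤ a → n + j - (a : ℕ) ≠ n + l - (c : ℕ)) :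
    Commute (W (De p c l) : Module.End k (M (n + 1) k)) (Ro p b j) := by
  unfold Ro
  refine Commute.sum_right _ _ _ fun a ha => ?_
  rw [Finset.mem_filter] at ha
  exact (commute_W_V _ a).mul_right (commute_Z_W (h a ha.2) _ _).symm

lemma red_Ro {b : ℕ} (hb : b < n + 1) (l : ℕ) (φ : M (n + 1) k) :
    red ⟨b, hb⟩ (Ro p b l φ) = Ro p (b + 1) l (red ⟨b, hb⟩ φ) := by
  rw [Ro_succ hb, LinearMap.add_apply, map_add, Module.End.mul_apply]
  have h1 : red (⟨b, hb⟩ : Fin (n + 1))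
      (V (⟨b, hb⟩ : Fin (n + 1)) (Z (De p ⟨b, hb⟩ l) φ)) = 0 := by
    rw [← Module.End.mul_apply, red_mul_V]; rfl
  rw [h1, add_zero]
  have h2 : Commute (red (⟨b, hb⟩ : Fin (n + 1)) : Module.End k (M (n + 1) k))
      (Ro p (b + 1) l) := by
    unfold Ro
    refine Commute.sum_right _ _ _ fun a ha => ?_
    rw [Finset.mem_filter] at ha
    refine (commute_red_V ?_).mul_right (commute_Z_red _ _).symm
    intro h
    rw [← h] at ha
    simp at ha
  rw [← Module.End.mul_apply, h2.eq, Module.End.mul_apply]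

end core

/-! ### the induction -/

noncomputable section ind

variable {p : ℕ} {n : ℕ} {k : Type} [CommRing k] (J : Set ℕ)

variable (p n k) in
/-- the leading term claim in `δ`-degree `d` and weight `w` -/
def A (b l : ℕ) (d w : ℤ) : Prop :=
  ∀ φ : M (n + 1) k, φ ∈ F p b d (w - P p n l) → (∀ j < l, j ∈ J → Ro p b j φ = 0) →
    ∃ ψ ∈ (F p b d w : Submodule k (M (n + 1) k)),
      (∀ j < l, j ∈ J → Ro p b j ψ = 0) ∧ Ro p b l ψ = φ

lemma comm_apply {f g : Module.End k (M (n + 1) k)} (h : Commute f g) (φ : M (n + 1) k) :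
    f (g φ) = g (f φ) := by
  rw [← Module.End.mul_apply, h.eq, Module.End.mul_apply]

lemma kill_of_V {a : Fin (n + 1)} {b j : ℕ} {χ : M (n + 1) k} (h : Ro p b j (V a χ) = 0) :
    Ro p b j χ = 0 := by
  rw [← comm_apply (commute_V_Ro a b j)] at h
  exact V_inj a h

variable {J}

lemma dec_V {b : ℕ} (hb : b < n + 1) {s u : ℤ} (l : ℕ) {χ : M (n + 1) k} (hχ : χ ∈ F p b s u)
    (hk : ∀ j < l, j ∈ J → Ro p b j χ = 0) (hr : red ⟨b, hb⟩ χ = 0) :
    ∃ χ' ∈ (F p b (s - (p : ℤ) ^ b) u : Submodule k (M (n + 1) k)),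
      (∀ j < l, j ∈ J → Ro p b j χ' = 0) ∧ V ⟨b, hb⟩ χ' = χ := by
  have h1 := V_dV_of_red _ hr
  refine ⟨dV ⟨b, hb⟩ χ, dV_mem hχ, ?_, h1⟩
  intro j hj hJ
  refine kill_of_V (a := ⟨b, hb⟩) ?_
  rw [h1]
  exact hk j hj hJ

lemma liftB {b : ℕ} (hb : b < n + 1) (d w : ℤ) : ∀ (l : ℕ),
    (∀ l' < l, A p n k J b l' (d - (p : ℤ) ^ b) w) →
    ∀ θ : M (n + 1) k, θ ∈ F p (b + 1) d w → (∀ j < l, j ∈ J → Ro p (b + 1) j θ = 0) →
    ∃ ψ ∈ (F p b d w : Submodule k (M (n + 1) k)), red ⟨b, hb⟩ ψ = θ ∧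
      ∀ j < l, j ∈ J → Ro p b j ψ = 0 := by
  intro l
  induction l with
  | zero =>
    intro _ θ hθ _
    exact ⟨θ, F_mono hθ, red_eq_self (b := b) rfl hθ, fun j hj => absurd hj (Nat.not_lt_zero j)⟩
  | succ l ih =>
    intro hA θ hθ hk
    obtain ⟨ψ, hψ, hr, hkψ⟩ := ih (fun l' hl' => hA l' (by omega)) θ hθ
      (fun j hj => hk j (by omega))
    by_cases hlJ : l ∈ J
    · have h1 : red ⟨b, hb⟩ (Ro p b l ψ) = 0 := by
        rw [red_Ro hb, hr]; exact hk l (by omega) hlJ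
      have h2 : ∀ j < l, j ∈ J → Ro p b j (Ro p b l ψ) = 0 := by
        intro j hj hJ
        rw [comm_apply (commute_Ro_Ro b j b l), hkψ j hj hJ, map_zero]
      obtain ⟨χ, hχ, hkχ, hVχ⟩ := dec_V hb l (Ro_mem hψ) h2 h1
      obtain ⟨ψ', hψ', hkψ', hRψ'⟩ := hA l (by omega) χ hχ hkχ
      refine ⟨ψ - V ⟨b, hb⟩ ψ', ?_, ?_, ?_⟩
      · refine Submodule.sub_mem _ hψ ?_
        have h4 := V_mem (a := (⟨b, hb⟩ : Fin (n + 1))) le_rfl hψ'
        rwa [sub_add_cancel] at h4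
      · rw [map_sub, ← Module.End.mul_apply, red_mul_V, LinearMap.zero_apply, sub_zero]
        exact hr
      · intro j hj hJ
        rw [map_sub, ← comm_apply (commute_V_Ro _ b j)]
        by_cases hjl : j = l
        · subst hjl
          rw [hRψ', hVχ, sub_self]
        · rw [hkψ j (by omega) hJ, hkψ' j (by omega) hJ, map_zero, sub_zero]
    · refine ⟨ψ, hψ, hr, ?_⟩
      intro j hj hJ
      have hjl : j ≠ l := by rintro rfl; exact hlJ hJ
      exact hkψ j (by omega) hJ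

lemma dec {b : ℕ} (hb : b < n + 1) (l : ℕ) (d w : ℤ) (h1 : A p n k J (b + 1) l d w)
    (h2 : ∀ l' < l, A p n k J b l' (d - (p : ℤ) ^ b) w) (χ : M (n + 1) k)
    (hχ : χ ∈ F p b d (w - P p n l)) (hk : ∀ j < l, j ∈ J → Ro p b j χ = 0) :
    ∃ ψ ∈ (F p b d w : Submodule k (M (n + 1) k)),
      ∃ χ' ∈ (F p b (d - (p : ℤ) ^ b) (w - P p n l) : Submodule k (M (n + 1) k)),
        (∀ j < l, j ∈ J → Ro p b j ψ = 0) ∧ (∀ j < l, j ∈ J → Ro p b j χ' = 0) ∧
          χ = Ro p b l ψ + V ⟨b, hb⟩ χ' := by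
  obtain ⟨θ, hθ, hkθ, hRθ⟩ := h1 (red ⟨b, hb⟩ χ) (red_mem rfl hχ) (by
    intro j hj hJ
    rw [← red_Ro hb, hk j hj hJ, map_zero])
  obtain ⟨ψ, hψ, hrψ, hkψ⟩ := liftB hb d w l h2 θ hθ hkθ
  have h3 : red ⟨b, hb⟩ (χ - Ro p b l ψ) = 0 := by
    rw [map_sub, red_Ro hb, hrψ, hRθ, sub_self]
  have h4 : ∀ j < l, j ∈ J → Ro p b j (χ - Ro p b l ψ) = 0 := by
    intro j hj hJ
    rw [map_sub, hk j hj hJ, comm_apply (commute_Ro_Ro b j b l), hkψ j hj hJ, map_zero, sub_zero]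
  obtain ⟨χ', hχ', hkχ', hVχ'⟩ := dec_V hb l (Submodule.sub_mem _ hχ (Ro_mem hψ)) h4 h3
  refine ⟨ψ, hψ, χ', hχ', hkψ, hkχ', ?_⟩
  rw [hVχ', add_sub_cancel]

lemma V_pow_mem {b : ℕ} {d w : ℤ} {a : Fin (n + 1)} (ha : b ≤ a) {φ : M (n + 1) k}
    (h : φ ∈ F p b d w) (N : ℕ) : (V a ^ N) φ ∈ F p b (d + N * (p : ℤ) ^ (a : ℕ)) w := by
  induction N with
  | zero => simpa using h
  | succ N ih =>
    rw [pow_succ', Module.End.mul_apply]
    have h1 := V_mem ha ih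
    have h2 : d + ((N + 1 : ℕ) : ℤ) * (p : ℤ) ^ (a : ℕ) =
        d + N * (p : ℤ) ^ (a : ℕ) + (p : ℤ) ^ (a : ℕ) := by
      push_cast; ring
    rw [h2]
    exact h1

lemma V_pow_kill {a : Fin (n + 1)} {b j : ℕ} {χ : M (n + 1) k} (h : Ro p b j χ = 0) (N : ℕ) :
    Ro p b j ((V a ^ N) χ) = 0 := by
  rw [← comm_apply ((commute_V_Ro a b j).pow_left N), h, map_zero]

variable (p n k) in
/-- minus the remaining part of `R l`, after the right inverse of the shift -/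
def RW (b : ℕ) (hb : b < n + 1) (l : ℕ) : Module.End k (M (n + 1) k) :=
  -((Ro p (b + 1) l : Module.End k (M (n + 1) k)) * W (De p ⟨b, hb⟩ l))

lemma key {b : ℕ} (hb : b < n + 1) (l : ℕ) : ∀ (N : ℕ) (s u : ℤ) (χ : M (n + 1) k),
    χ ∈ F p b s u → (∀ j < l, j ∈ J → Ro p b j χ = 0) →
    ∃ ψ ∈ (F p b (s + N * (p : ℤ) ^ b) (u + P p n l) : Submodule k (M (n + 1) k)),
      (∀ j < l, j ∈ J → Ro p b j ψ = 0) ∧
      (V ⟨b, hb⟩ ^ N) χ = Ro p b l ψ + (RW p n k b hb l ^ N) χ := by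
  intro N
  induction N with
  | zero =>
    intro s u χ hχ hk
    exact ⟨0, Submodule.zero_mem _, fun j _ _ => map_zero _, by simp⟩
  | succ N ih =>
    intro s u χ hχ hk
    have hWm := W_mem (De p ⟨b, hb⟩ l) hχ
    rw [wt_De, ct_De] at hWm
    have hWk : ∀ j < l, j ∈ J → Ro p b j (W (De p ⟨b, hb⟩ l) χ) = 0 := by
      intro j hj hJ
      rw [← comm_apply (commute_W_Ro (⟨b, hb⟩ : Fin (n + 1)) l b j ?_), hk j hj hJ, map_zero]
      intro a ha
      have := a.2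
      simp only
      omega
    have hVχ : V ⟨b, hb⟩ χ = Ro p b l (W (De p ⟨b, hb⟩ l) χ) +
        RW p n k b hb l χ := by
      rw [RW, Ro_succ hb, LinearMap.add_apply, LinearMap.neg_apply, Module.End.mul_apply,
        Module.End.mul_apply, ← Module.End.mul_apply (Z _), Z_mul_W, Module.End.one_apply]
      abel
    have h1m : RW p n k b hb l χ ∈
        (F p b (s + (p : ℤ) ^ b) u : Submodule k (M (n + 1) k)) := by
      rw [RW, LinearMap.neg_apply, Module.End.mul_apply]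
      have h2 := Submodule.neg_mem _ (Ro_mem' (Nat.le_succ b) (l := l) hWm)
      have e2 : u + P p n l - P p n l = u := by ring
      rw [e2] at h2
      exact h2
    have h1k : ∀ j < l, j ∈ J → Ro p b j (RW p n k b hb l χ) = 0 := by
      intro j hj hJ
      rw [RW, LinearMap.neg_apply, map_neg, Module.End.mul_apply,
        comm_apply (commute_Ro_Ro b j (b + 1) l), hWk j hj hJ, map_zero, neg_zero]
    obtain ⟨ψ1, hψ1, hk1, hV1⟩ := ih _ _ _ h1m h1k
    refine ⟨(V ⟨b, hb⟩ ^ N) (W (De p ⟨b, hb⟩ l) χ) + ψ1, ?_, ?_, ?_⟩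
    · refine Submodule.add_mem _ ?_ ?_
      · have h3 := V_pow_mem (a := (⟨b, hb⟩ : Fin (n + 1))) le_rfl hWm N
        have e1 : s + ((N + 1 : ℕ) : ℤ) * (p : ℤ) ^ b =
            s + (p : ℤ) ^ b + N * (p : ℤ) ^ b := by
          push_cast; ring
        rw [e1]
        exact h3
      · have e1 : s + ((N + 1 : ℕ) : ℤ) * (p : ℤ) ^ b =
            s + (p : ℤ) ^ b + N * (p : ℤ) ^ b := by
          push_cast; ring
        rw [e1]
        exact hψ1
    · intro j hj hJ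
      rw [map_add, hk1 j hj hJ, V_pow_kill (hWk j hj hJ), add_zero]
    · rw [pow_succ, Module.End.mul_apply, hVχ, map_add,
        comm_apply ((commute_V_Ro (⟨b, hb⟩ : Fin (n + 1)) b l).pow_left N), hV1, map_add,
        pow_succ _ N, Module.End.mul_apply, add_assoc]

lemma iter {b : ℕ} (hb : b < n + 1) (l : ℕ) (d w : ℤ) : ∀ (N : ℕ),
    (∀ i : ℕ, i < N → A p n k J (b + 1) l (d - i * (p : ℤ) ^ b) w) →
    (∀ i : ℕ, i < N → ∀ l' < l, A p n k J b l' (d - (i + 1) * (p : ℤ) ^ b) w) →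
    ∀ φ : M (n + 1) k, φ ∈ F p b d (w - P p n l) → (∀ j < l, j ∈ J → Ro p b j φ = 0) →
    ∃ ψ ∈ (F p b d w : Submodule k (M (n + 1) k)),
      ∃ χ ∈ (F p b (d - N * (p : ℤ) ^ b) (w - P p n l) : Submodule k (M (n + 1) k)),
        (∀ j < l, j ∈ J → Ro p b j ψ = 0) ∧ (∀ j < l, j ∈ J → Ro p b j χ = 0) ∧
          φ = Ro p b l ψ + (V ⟨b, hb⟩ ^ N) χ := by
  intro N
  induction N with
  | zero =>
    intro _ _ φ hφ hk
    refine ⟨0, Submodule.zero_mem _, φ, by simpa using hφ, fun j _ _ => map_zero _, hk, by simp⟩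
  | succ N ih =>
    intro hA hA' φ hφ hk
    obtain ⟨ψ, hψ, χ, hχ, hkψ, hkχ, e⟩ := ih (fun i hi => hA i (by omega))
      (fun i hi => hA' i (by omega)) φ hφ hk
    obtain ⟨ψ', hψ', χ', hχ', hkψ', hkχ', e'⟩ := dec hb l (d - N * (p : ℤ) ^ b) w
      (hA N (by omega)) (by
        intro l' hl'
        have h1 := hA' N (by omega) l' hl'
        have e1 : d - ((N : ℤ) + 1) * (p : ℤ) ^ b = d - N * (p : ℤ) ^ b - (p : ℤ) ^ b := by ring
        rw [e1] at h1
        exact h1) χ hχ hkχ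
    refine ⟨ψ + (V ⟨b, hb⟩ ^ N) ψ', ?_, χ', ?_, ?_, hkχ', ?_⟩
    · refine Submodule.add_mem _ hψ ?_
      have h3 := V_pow_mem (a := (⟨b, hb⟩ : Fin (n + 1))) le_rfl hψ' N
      rwa [sub_add_cancel] at h3
    · have e1 : d - ((N + 1 : ℕ) : ℤ) * (p : ℤ) ^ b =
          d - N * (p : ℤ) ^ b - (p : ℤ) ^ b := by
        push_cast; ring
      rw [e1]
      exact hχ'
    · intro j hj hJ
      rw [map_add, hkψ j hj hJ, V_pow_kill (hkψ' j hj hJ), add_zero]
    · rw [e, e', map_add, map_add, pow_succ, Module.End.mul_apply,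
        comm_apply ((commute_V_Ro (⟨b, hb⟩ : Fin (n + 1)) b l).pow_left N), add_assoc]

end ind

end Vale.Agent.P221.H395.V
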